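import Vale.Agent.P352X.R.BP.A
import Vale.Agent.P352Z.P352X.R.BB.Base
import Vale.Agent.P352Z.P352X.R.CONK.Kp
import Vale.Agent.P352Z.P352X.R.CONK.Tri
import Vale.Agent.P352G2.Kit

open Vale.Agent.P352G

/-!
# P352X, row BP: transverse wedges and commutation with far parts of the plane
-/

set_option linter.all false

open MeasureTheory Filter Topology
open scoped SchwartzMap ComplexConjugate ContDiff

namespace Vale.Agent.P352X.BPa

open Vale.Agent.P352 Vale.Agent.P352.GF Vale.Agent.P352.BW Vale.Agent.P352.H246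
open Vale.Agent.P352.H496 Vale.Agent.P352.H755
open Vale.Agent.P132 (jconj)
open UniformSpace (Completion)

noncomputable section

/-! ### geometry -/

/-! ### commutation -/

variable {D : Type*} [NormedAddCommGroup D] [InnerProductSpace ℂ D] [GrD D] {c : CtxZ D}
  {X Y Z : Completion D →L[ℂ] Completion D} {R : ℝ} {w w' v v' : Completion D} {O : Set V}

variable (c) in
/-- localised in all transverse wedges that contain the box -/
def LocZ (R : ℝ) (Z : Completion D →L[ℂ] Completion D) : Prop :=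
  ∀ w p, w ≠ 0 → Bx R ⊆ Wt w p → Z ∈ c.N (Wt w p)

lemma LocZ.of (hX : X ∈ c.N O) (h : O ⊆ Bx R) : LocZ c R X :=
  fun _ _ _ k => c.N_mono (h.trans k) X hX

lemma LocZ.mul (h : LocZ c R X) (h' : LocZ c R Y) : LocZ c R (X * Y) :=
  fun w p a b => mul_mem (h w p a b) (h' w p a b)

lemma LocZ.J (j : JCZ c) (e : Ev X) (h : LocZ c R X) : LocZ c R (jconj c.J X) := fun w p a b =>
  jr_Wt w p ▸ (j.algE _ _ _ (null_nv _) (null_nv _) (md_nvv a) X (h w p a b) e).1

variable (c) in
/-- `T_aa` commutes in the region `O` with the operator that the pair stands for -/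
def ComZ (w w' : Completion D) (O : Set V) : Prop :=
  ∀ h, In O h → inner ℂ (c.Tv (hk va va (bar h))) w = inner ℂ w' (c.Tv (hk va va h))

lemma ComZ.sub (h : ComZ c w w' O) (h' : ComZ c v v' O) : ComZ c (w - v) (w' - v') O := fun f hf => by
  rw [inner_sub_left, inner_sub_right, h f hf, h' f hf]

lemma ComZ.lim (h : ∀ ε > 0, ∃ v v', ComZ c v v' O ∧ ‖w - v‖ ≤ ε ∧ ‖w' - v'‖ ≤ ε) :
    ComZ c w w' O := fun f hf => by
  refine eq_of_sub_eq_zero (norm_le_zero_iff.1 (le_of_forall_pos_le_add fun η hη => ?_))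
  set M := ‖c.Tv (hk va va (bar f))‖ + ‖c.Tv (hk va va f)‖ + 1 with hM
  have M0 : 0 < M := by positivity
  obtain ⟨v, v', a, b, d⟩ := h (η / M) (by positivity)
  have e : inner ℂ (c.Tv (hk va va (bar f))) w - inner ℂ w' (c.Tv (hk va va f)) =
      inner ℂ (c.Tv (hk va va (bar f))) (w - v) - inner ℂ (w' - v') (c.Tv (hk va va f)) := by
    rw [inner_sub_left, inner_sub_right, a f hf]
    ring
  rw [e, zero_add, ← div_mul_cancel₀ η M0.ne']
  refine (norm_sub_le _ _).trans ((add_le_add (norm_inner_le_norm _ _)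
    (norm_inner_le_norm _ _)).trans ?_)
  have := div_pos hη M0
  nlinarith [mul_le_mul_of_nonneg_left b (norm_nonneg (c.Tv (hk va va (bar f)))),
    mul_le_mul_of_nonneg_left d (norm_nonneg (c.Tv (hk va va f)))]

theorem LocZ.com (g : GRPZ c) (j : JCZ c) (hR : 0 < R) (e : Ev Z) (h : LocZ c R Z) :
    ComZ c (Z c.Om) (star Z c.Om) (Fr R) := fun f hf => by
  refine Ap.in_ind (P := fun f => inner ℂ (c.Tv (hk va va (bar f))) (Z c.Om) =
    inner ℂ (star Z c.Om) (c.Tv (hk va va f))) ?_ (fun f f' a b d e => ?_) (fun z hz => ?_) hf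
  · have : bar (fun _ => 0) = fun _ => 0 := funext fun _ => star_zero _
    rw [this, BX.Tv_zeroZ, inner_zero_left, inner_zero_right]
  · have : bar (fun x => f x + f' x) = fun x => bar f x + bar f' x := funext fun _ => star_add _ _
    rw [this, BX.Tv_addZ (Ap.test_bar a.1) (Ap.test_bar b.1), BX.Tv_addZ a.1 b.1, inner_add_left,
      inner_add_right, d, e]
  · obtain ⟨w, p, a, b, d⟩ := sep hR hz
    refine ⟨Wt w p, (wdg_open _ _ _).mem_nhds b, fun f hf => ?_⟩
    have k := h _ p (neg_ne_zero.2 a) d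
    rw [Wt, neg_neg, ← j.dualE _ _ _ (null_nv _) (null_nv _) (md_nvv a) Z e] at k
    have := g.pr_Tv (Ap.in_hk va va (Ap.in_mono hf Set.inter_subset_left)) Z k
    rw [CK.bar_hk] at this
    exact this.symm

end

end Vale.Agent.P352X.BPa
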